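import Vale.Agent.P128.TA1.Main

/-! P128 block TA3: components of compact sets. -/

namespace Vale.Agent.P128

open MeasureTheory Set Metric Filter Topology
open scoped ENNReal

theorem comp_compact_TA3 {S : Set ℂ} (hS : IsCompact S) {y : ℂ} (hy : y ∈ S) :
    IsCompact (connectedComponentIn S y) ∧ IsConnected (connectedComponentIn S y) := by
  refine ⟨?_, isConnected_connectedComponentIn_iff.2 hy⟩
  have : CompactSpace S := isCompact_iff_compactSpace.1 hS
  rw [connectedComponentIn_eq_image hy]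
  exact (isClosed_connectedComponent.isCompact).image continuous_subtype_val

theorem NC1_TA3 {K : Set ℂ} (hK : IsClosed K) (hN : NoPiece K) {x y : ℂ} {R : ℝ}
    (hy : y ∈ K ∩ closedBall x R) :
    (connectedComponentIn (K ∩ closedBall x R) y ∩ sphere x R).Nonempty := by
  set S := K ∩ closedBall x R with hSdef
  have hS : IsCompact S := (isCompact_closedBall x R).inter_left hK
  have : CompactSpace S := isCompact_iff_compactSpace.1 hS
  by_contra hne
  rw [not_nonempty_iff_eq_empty] at hne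
  have hT : IsCompact ((↑) ⁻¹' (sphere x R) : Set S) :=
    (isClosed_sphere.preimage continuous_subtype_val).isCompact
  have hdis : ((↑) ⁻¹' (sphere x R) : Set S) ∩
      ⋂ Z : {s : Set S // IsClopen s ∧ (⟨y, hy⟩ : S) ∈ s}, (Z : Set S) = ∅ := by
    rw [← connectedComponent_eq_iInter_isClopen, eq_empty_iff_forall_notMem]
    rintro w ⟨hw1, hw2⟩
    have : (w : ℂ) ∈ connectedComponentIn S y ∩ sphere x R := by
      refine ⟨?_, hw1⟩
      rw [connectedComponentIn_eq_image hy]
      exact mem_image_of_mem _ hw2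
    rw [hne] at this
    exact this
  obtain ⟨t, ht⟩ := hT.elim_finite_subfamily_closed _ (fun Z => Z.2.1.isClosed) hdis
  set Z : Set S := ⋂ i ∈ t, (i : Set S) with hZ
  have hZc : IsClopen Z := isClopen_biInter_finset fun i _ => i.2.1
  have hyZ : (⟨y, hy⟩ : S) ∈ Z := mem_iInter₂.2 fun i _ => i.2.2
  have hG := hN ((↑) '' Z) (by rintro _ ⟨w, -, rfl⟩; exact w.2.1)
    (hZc.isClosed.isCompact.image continuous_subtype_val) ?_
  · have : y ∈ ((↑) '' Z : Set ℂ) := ⟨⟨y, hy⟩, hyZ, rfl⟩
    rw [hG] at this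
    exact this
  · have heq : K \ ((↑) '' Z) = (K \ ball x R) ∪ ((↑) '' Zᶜ) := by
      ext w
      constructor
      · rintro ⟨hwK, hw⟩
        by_cases hb : w ∈ ball x R
        · right
          refine ⟨⟨w, hwK, ball_subset_closedBall hb⟩, fun h => hw ⟨_, h, rfl⟩, rfl⟩
        · exact Or.inl ⟨hwK, hb⟩
      · rintro (⟨hwK, hw⟩ | ⟨v, hv, rfl⟩)
        · refine ⟨hwK, ?_⟩
          rintro ⟨v, hv, rfl⟩
          have h1 : (v : ℂ) ∈ sphere x R := by
            have h2 := v.2.2
            rw [mem_closedBall] at h2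
            rw [mem_ball, not_lt] at hw
            exact le_antisymm h2 hw
          have : v ∈ ((↑) ⁻¹' (sphere x R) : Set S) ∩ Z := ⟨h1, hv⟩
          rw [ht] at this
          exact this
        · refine ⟨v.2.1, ?_⟩
          rintro ⟨v', hv', h⟩
          exact hv (Subtype.ext h ▸ hv')
    rw [heq]
    exact (hK.sdiff isOpen_ball).union
      (hZc.compl.isClosed.isCompact.image continuous_subtype_val).isClosed

theorem LOCFIN_TA3 {K : Set ℂ} (hK : IsClosed K) (hN : NoPiece K) {x : ℂ} {R : ℝ} (hR : 0 < R)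
    (hfin : μH[1] (K ∩ closedBall x (2 * R)) < ∞) :
    ∃ F : Finset (Set ℂ), (∀ C ∈ F, IsCompact C ∧ IsConnected C ∧
        C ⊆ K ∩ closedBall x (2 * R) ∧ (C ∩ sphere x (2 * R)).Nonempty ∧
        (C ∩ closedBall x R).Nonempty) ∧
      (F : Set (Set ℂ)).PairwiseDisjoint id ∧ K ∩ closedBall x R ⊆ ⋃ C ∈ F, C := by
  set S := K ∩ closedBall x (2 * R) with hSdef
  have hS : IsCompact S := (isCompact_closedBall x _).inter_left hK
  have hsub : K ∩ closedBall x R ⊆ S :=
    inter_subset_inter_right _ (closedBall_subset_closedBall (by linarith))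
  set G : Set (Set ℂ) := (fun y => connectedComponentIn S y) '' (K ∩ closedBall x R) with hG
  have hprop : ∀ C ∈ G, IsCompact C ∧ IsConnected C ∧ C ⊆ S ∧ (C ∩ sphere x (2 * R)).Nonempty ∧
      (C ∩ closedBall x R).Nonempty := by
    rintro _ ⟨y, hy, rfl⟩
    have h := comp_compact_TA3 hS (hsub hy)
    exact ⟨h.1, h.2, connectedComponentIn_subset _ _, NC1_TA3 hK hN (hsub hy),
      ⟨y, mem_connectedComponentIn (hsub hy), hy.2⟩⟩
  have hdisj : G.PairwiseDisjoint id := by
    rintro _ ⟨y, -, rfl⟩ _ ⟨y', -, rfl⟩ hne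
    rw [Function.onFun, Set.disjoint_left]
    intro w hw hw'
    exact hne ((connectedComponentIn_eq hw).trans (connectedComponentIn_eq hw').symm)
  have hlen : ∀ C ∈ G, ENNReal.ofReal R ≤ μH[1] C := by
    intro C hC
    obtain ⟨-, hc, -, ⟨q, hq, hq'⟩, ⟨p, hp, hp'⟩⟩ := hprop C hC
    refine (cont_len hc.isPreconnected hp hq (t := R) ?_).trans (measure_mono inter_subset_left)
    rw [mem_sphere] at hq'
    rw [mem_closedBall] at hp'
    linarith [dist_triangle q p x]
  have hfinG : G.Finite := by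
    have h := Measure.finite_const_le_meas_of_disjoint_iUnion (ι := G) (μH[1] : Measure ℂ)
      (ε := ENNReal.ofReal R) (ENNReal.ofReal_pos.2 hR) (As := fun C => (C : Set ℂ))
      (fun C => (hprop C C.2).1.isClosed.measurableSet)
      (fun C C' hne => hdisj C.2 C'.2 fun h => hne (Subtype.ext h))
      (ne_top_of_le_ne_top hfin.ne
        (measure_mono (iUnion_subset fun C => (hprop C C.2).2.2.1)))
    have h2 : {i : G | ENNReal.ofReal R ≤ μH[1] (i : Set ℂ)} = univ :=
      eq_univ_of_forall fun C => hlen C C.2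
    rw [h2] at h
    exact Set.finite_coe_iff.1 (Set.finite_univ_iff.1 h)
  refine ⟨hfinG.toFinset, fun C hC => hprop C (hfinG.mem_toFinset.1 hC), ?_, fun y hy => ?_⟩
  · rw [hfinG.coe_toFinset]; exact hdisj
  · exact mem_iUnion₂.2 ⟨_, hfinG.mem_toFinset.2 ⟨y, hy, rfl⟩, mem_connectedComponentIn (hsub hy)⟩

end Vale.Agent.P128
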