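import Vale.Agent.P128.TA3.Log

/-! P128 block TA3: the crossing lemma. -/

namespace Vale.Agent.P128

open MeasureTheory Set Metric Filter Topology

/-- Difference of two points of a circle. -/
theorem circle_sub_TA3 (y : ℂ) (s a b : ℝ) :
    circleMap y s a - circleMap y s b =
      (2 * s * Real.sin ((a - b) / 2) : ℝ) *
        (Complex.I * Complex.exp (((a + b) / 2 : ℝ) * Complex.I)) := by
  have h1 : Complex.exp (a * Complex.I) = Complex.exp (((a + b) / 2 : ℝ) * Complex.I) *
      Complex.exp (((a - b) / 2 : ℝ) * Complex.I) := by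
    rw [← Complex.exp_add]; congr 1; push_cast; ring
  have h2 : Complex.exp (b * Complex.I) = Complex.exp (((a + b) / 2 : ℝ) * Complex.I) *
      Complex.exp ((-((a - b) / 2 : ℝ)) * Complex.I) := by
    rw [← Complex.exp_add]; congr 1; push_cast; ring
  simp only [circleMap]
  rw [h1, h2, Complex.exp_mul_I (((a - b) / 2 : ℝ) : ℂ), Complex.exp_mul_I (-((a - b) / 2 : ℝ) : ℂ),
    Complex.cos_neg, Complex.sin_neg]
  push_cast
  ring

/-- The imaginary part of the quotient at a point of the circle. -/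
theorem quot_im_TA3 (y : ℂ) {s : ℝ} (hs : 0 < s) (θ₁ θ₂ a : ℝ)
    (h : Real.sin ((a - θ₂) / 2) ≠ 0) :
    circleMap y s a ≠ circleMap y s θ₂ ∧
    ((circleMap y s a - circleMap y s θ₁) / (circleMap y s a - circleMap y s θ₂)).im =
      Real.sin ((a - θ₁) / 2) / Real.sin ((a - θ₂) / 2) * Real.sin ((θ₁ - θ₂) / 2) := by
  have hne : ((2 * s * Real.sin ((a - θ₂) / 2) : ℝ) : ℂ) ≠ 0 := by
    exact_mod_cast mul_ne_zero (by positivity) h
  constructor
  · rw [← sub_ne_zero, circle_sub_TA3]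
    exact mul_ne_zero hne (mul_ne_zero Complex.I_ne_zero (Complex.exp_ne_zero _))
  · have h1 : Complex.exp (((a + θ₁) / 2 : ℝ) * Complex.I) =
        Complex.exp (((a + θ₂) / 2 : ℝ) * Complex.I) *
          Complex.exp (((θ₁ - θ₂) / 2 : ℝ) * Complex.I) := by
      rw [← Complex.exp_add]; congr 1; push_cast; ring
    have h2 : (circleMap y s a - circleMap y s θ₁) / (circleMap y s a - circleMap y s θ₂) =
        ((Real.sin ((a - θ₁) / 2) / Real.sin ((a - θ₂) / 2) : ℝ) : ℂ) *
          Complex.exp (((θ₁ - θ₂) / 2 : ℝ) * Complex.I) := by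
      rw [circle_sub_TA3, circle_sub_TA3, h1,
        div_eq_iff (mul_ne_zero hne (mul_ne_zero Complex.I_ne_zero (Complex.exp_ne_zero _)))]
      have h3 : ((Real.sin ((a - θ₂) / 2) : ℝ) : ℂ) ≠ 0 := by exact_mod_cast h
      rw [Complex.ofReal_div (Real.sin _)]
      simp only [Complex.ofReal_mul]
      field_simp
    rw [h2, Complex.im_ofReal_mul, Complex.exp_ofReal_mul_I_im]

/-- Inside the open disc minus the quotient avoids the negative axis. -/
theorem slit_inside_TA3 {y p q z : ℂ} {s : ℝ} (hp : p ∈ sphere y s) (hq : q ∈ sphere y s)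
    (hpq : p ≠ q) (hz : z ∈ ball y s) :
    z ≠ q ∧ -1 * ((z - p) / (z - q)) ∈ Complex.slitPlane := by
  have hzq : z ≠ q := fun h => (mem_ball.1 hz).ne (h ▸ mem_sphere.1 hq)
  refine ⟨hzq, ?_⟩
  have hconv : ∀ {u v : ℂ} {a b : ℝ}, u ∈ sphere y s → v ∈ sphere y s → 0 < a → 0 ≤ b →
      a + b = 1 → v = a • z + b • u → False := by
    intro u v a b hu hv ha hb hab h
    have h1 : a • z + b • u ∈ interior (closedBall y s) :=
      (convex_closedBall y s).combo_interior_self_mem_interior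
        (ball_subset_interior_closedBall hz) (sphere_subset_closedBall hu) ha hb hab
    have hs : s ≠ 0 := (pos_of_mem_ball hz).ne'
    rw [interior_closedBall y hs, ← h] at h1
    exact (mem_ball.1 h1).ne (mem_sphere.1 hv)
  by_contra hs
  rw [Complex.mem_slitPlane_iff, not_or, not_lt, not_not, neg_one_mul, Complex.neg_re,
    Complex.neg_im, neg_eq_zero] at hs
  set t : ℝ := ((z - p) / (z - q)).re with ht
  have ht0 : 0 ≤ t := by linarith [hs.1]
  have h2 : z - q ≠ 0 := sub_ne_zero.2 hzq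
  have h1 : z - p = (t : ℂ) * (z - q) := by
    rw [← div_eq_iff h2]
    apply Complex.ext
    · simp [ht]
    · simp [hs.2]
  rcases lt_trichotomy t 1 with h | h | h
  · refine hconv hq hp (a := 1 - t) (b := t) (by linarith) ht0 (by ring) ?_
    simp only [Complex.real_smul]
    push_cast
    linear_combination -h1
  · rw [h] at h1
    apply hpq
    push_cast at h1
    linear_combination -h1
  · have ht1 : (t : ℂ) ≠ 0 := by exact_mod_cast (by linarith : t ≠ 0)
    have ht2 : 0 < t := by linarith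
    refine hconv hp hq (a := (t - 1) / t) (b := 1 / t) (div_pos (by linarith) ht2)
      (by positivity) (by field_simp; ring) ?_
    simp only [Complex.real_smul]
    push_cast
    field_simp
    linear_combination h1

/-- Comparison of a logarithm with an explicit one on an open preconnected set up to two boundary
points. -/
theorem log_compare_TA3 {C V : Set ℂ} (hC : IsClosed C) (hV : IsPreconnected V)
    {p q A B σ : ℂ} (hσ : σ ≠ 0) {ℓ : ℂ → ℂ}
    (hℓ : ∀ z ∉ C, HasDerivAt ℓ ((z - p)⁻¹ - (z - q)⁻¹) z) (hA : A ∈ closure V)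
    (hB : B ∈ closure V)
    (h : ∀ z ∈ V ∪ {A, B}, z ∉ C ∧ z ≠ q ∧ σ * ((z - p) / (z - q)) ∈ Complex.slitPlane) :
    ℓ A - Complex.log (σ * ((A - p) / (A - q))) = ℓ B - Complex.log (σ * ((B - p) / (B - q))) := by
  have hT : IsPreconnected (V ∪ {A, B}) :=
    hV.subset_closure subset_union_left
      (union_subset subset_closure (insert_subset hA (singleton_subset_iff.2 hB)))
  set O : Set ℂ := Cᶜ ∩ ({q}ᶜ ∩ (fun z => σ * ((z - p) / (z - q))) ⁻¹' Complex.slitPlane) with hO
  have hOo : IsOpen O := by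
    refine hC.isOpen_compl.inter (ContinuousOn.isOpen_inter_preimage ?_ isOpen_compl_singleton
      Complex.isOpen_slitPlane)
    exact continuousOn_const.mul ((continuousOn_id.sub continuousOn_const).div
      (continuousOn_id.sub continuousOn_const) fun z hz => sub_ne_zero.2 hz)
  refine const_of_lc_TA3 hT (f := fun w => ℓ w - Complex.log (σ * ((w - p) / (w - q))))
    (fun v hv => lc_of_deriv_TA3 hOo (fun u hu => ?_) (h v hv)) (by simp) (by simp)
  exact ((hℓ u hu.1).fun_sub (log_quot_TA3 σ hσ hu.2.1 hu.2.2)).congr_deriv (sub_self _)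

theorem crossing_TA3 {y : ℂ} {s : ℝ} (hs : 0 < s) {θ₁ θ₂ a b : ℝ} (h1 : θ₁ < a) (h2 : a < θ₂)
    (h3 : θ₂ < b) (h4 : b < θ₁ + 2 * Real.pi) {C₁ C₂ : Set ℂ}
    (hC₁ : IsCompact C₁) (hc₁ : IsPreconnected C₁) (hC₂ : IsCompact C₂) (hc₂ : IsPreconnected C₂)
    (hin : C₁ ⊆ closedBall y s) (hout : Disjoint C₂ (ball y s))
    (hp₁ : circleMap y s θ₁ ∈ C₁ ∩ C₂) (hp₂ : circleMap y s θ₂ ∈ C₁ ∩ C₂)
    (honly : (C₁ ∪ C₂) ∩ sphere y s ⊆ {circleMap y s θ₁, circleMap y s θ₂}) :
    ∃ κ : ℂ → ℝ, LC (C₁ ∪ C₂)ᶜ κ ∧ κ (circleMap y s a) ≠ κ (circleMap y s b) := by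
  have hsph : ∀ t, circleMap y s t ∈ sphere y s := fun t => circleMap_mem_sphere y hs.le t
  have spos : ∀ t : ℝ, 0 < t → t < 2 * Real.pi → 0 < Real.sin (t / 2) := fun t h h' =>
    Real.sin_pos_of_pos_of_lt_pi (by linarith) (by linarith)
  have sneg : ∀ t : ℝ, t < 0 → -(2 * Real.pi) < t → Real.sin (t / 2) < 0 := fun t h h' =>
    Real.sin_neg_of_neg_of_neg_pi_lt (by linarith) (by linarith)
  have sa1 := spos (a - θ₁) (by linarith) (by linarith)
  have sa2 := sneg (a - θ₂) (by linarith) (by linarith)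
  have sb1 := spos (b - θ₁) (by linarith) (by linarith)
  have sb2 := spos (b - θ₂) (by linarith) (by linarith)
  have s12 := sneg (θ₁ - θ₂) (by linarith) (by linarith)
  obtain ⟨hAq, hAim⟩ := quot_im_TA3 y hs θ₁ θ₂ a sa2.ne
  obtain ⟨hBq, hBim⟩ := quot_im_TA3 y hs θ₁ θ₂ b sb2.ne'
  have hAp := (quot_im_TA3 y hs θ₁ θ₁ a sa1.ne').1
  have hBp := (quot_im_TA3 y hs θ₁ θ₁ b sb1.ne').1
  have hpq := (quot_im_TA3 y hs θ₁ θ₂ θ₁ s12.ne).1
  set p := circleMap y s θ₁ with hp
  set q := circleMap y s θ₂ with hq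
  set A := circleMap y s a with hA
  set B := circleMap y s b with hB
  have hApos : 0 < ((A - p) / (A - q)).im := by
    rw [hAim]; exact mul_pos_of_neg_of_neg (div_neg_of_pos_of_neg sa1 sa2) s12
  have hBneg : ((B - p) / (B - q)).im < 0 := by
    rw [hBim]; exact mul_neg_of_pos_of_neg (div_pos sb1 sb2) s12
  have hAC : A ∉ C₁ ∪ C₂ := fun h => by
    rcases honly ⟨h, hsph a⟩ with h' | h'
    exacts [hAp h', hAq h']
  have hBC : B ∉ C₁ ∪ C₂ := fun h => by
    rcases honly ⟨h, hsph b⟩ with h' | h'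
    exacts [hBp h', hBq h']
  obtain ⟨l₁, hl₁, -⟩ := exists_log_TA3 hC₁ hc₁ hp₁.1 hp₂.1
  obtain ⟨l₂, hl₂, -⟩ := exists_log_TA3 hC₂ hc₂ hp₁.2 hp₂.2
  have hclo : ∀ t, circleMap y s t ∈ closure {z : ℂ | s < dist z y} := by
    intro t
    have hc : Continuous fun r : ℝ => circleMap y r t := by unfold circleMap; fun_prop
    refine mem_closure_of_tendsto (b := 𝓝[>] s) (hc.continuousAt.tendsto.mono_left
      nhdsWithin_le_nhds) ?_
    filter_upwards [self_mem_nhdsWithin] with r hr
    have hr' : s < r := hr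
    have := mem_sphere.1 (circleMap_mem_sphere y (hs.trans hr').le t)
    change s < dist _ y
    rwa [this]
  have hcli : ∀ t, circleMap y s t ∈ closure (ball y s) := fun t => by
    rw [closure_ball y hs.ne']; exact sphere_subset_closedBall (hsph t)
  have e1 := log_compare_TA3 hC₁.isClosed (outside_preconn_TA3 y s) (σ := 1) one_ne_zero
    (fun z hz => (hl₁ z hz).1) (hclo a) (hclo b) (by
      rintro z (hz | rfl | rfl)
      · exact ⟨fun h => absurd (mem_closedBall.1 (hin h)) (not_le.2 hz),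
          slit_outside_TA3 (hin hp₁.1) (hin hp₂.1) hz⟩
      · exact ⟨fun h => hAC (Or.inl h), hAq, Or.inr (by rw [one_mul]; exact hApos.ne')⟩
      · exact ⟨fun h => hBC (Or.inl h), hBq, Or.inr (by rw [one_mul]; exact hBneg.ne)⟩)
  have e2 := log_compare_TA3 hC₂.isClosed (convex_ball y s).isPreconnected (σ := -1)
    (by norm_num) (fun z hz => (hl₂ z hz).1) (hcli a) (hcli b) (by
      rintro z (hz | rfl | rfl)
      · exact ⟨fun h => Set.disjoint_left.1 hout h hz,
          slit_inside_TA3 (hsph θ₁) (hsph θ₂) hpq hz⟩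
      · exact ⟨fun h => hAC (Or.inr h), hAq,
          Or.inr (by rw [neg_one_mul, Complex.neg_im]; linarith)⟩
      · exact ⟨fun h => hBC (Or.inr h), hBq,
          Or.inr (by rw [neg_one_mul, Complex.neg_im]; linarith)⟩)
  refine ⟨fun z => (l₁ z - l₂ z).im, fun z hz => ?_, fun h => ?_⟩
  · have := lc_of_deriv_TA3 (hC₁.union hC₂).isClosed.isOpen_compl (f := fun w => l₁ w - l₂ w)
      (fun u hu => ((hl₁ u fun h => hu (Or.inl h)).1.fun_sub
        (hl₂ u fun h => hu (Or.inr h)).1).congr_deriv (sub_self _)) hz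
    filter_upwards [this] with w hw
    rw [hw]
  · have i1 := congrArg Complex.im e1
    have i2 := congrArg Complex.im e2
    simp only [Complex.sub_im, Complex.log_im, one_mul, neg_one_mul] at i1 i2 h
    rw [Complex.arg_neg_eq_arg_sub_pi_of_im_pos hApos,
      Complex.arg_neg_eq_arg_add_pi_of_im_neg hBneg] at i2
    linarith [Real.pi_pos]

end Vale.Agent.P128
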