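import Vale.Agent.P128.Defs

/-! P128 block TA3: non-cut points of continua. -/

namespace Vale.Agent.P128

open MeasureTheory Set Metric Filter Topology

/-- One side of a cut together with the cut point is preconnected. -/
theorem side_preconn_TA3 {C u v : Set ℂ} (hC : IsClosed C) (hc : IsPreconnected C) {z : ℂ}
    (hz : z ∈ C) (hu : IsOpen u) (hv : IsOpen v) (_hzu : z ∉ u) (hzv : z ∉ v)
    (hcov : C \ {z} ⊆ u ∪ v) (hdis : ∀ w ∈ C, w ∈ u → w ∉ v) : IsPreconnected (C \ v) := by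
  have key : ∀ s t : Set ℂ, IsClosed s → IsClosed t → C \ v ⊆ s ∪ t →
      (C \ v) ∩ (s ∩ t) = ∅ → z ∈ s → C \ v ⊆ s := by
    intro s t hs ht hst hemp hzs
    have hno : ∀ w, w ∈ C → w ∉ v → w ∈ s → w ∈ t → False := fun w h1 h2 h3 h4 => by
      have : w ∈ (C \ v) ∩ (s ∩ t) := ⟨⟨h1, h2⟩, h3, h4⟩
      rw [hemp] at this
      exact this
    have hcv : IsClosed (C \ v) := hC.sdiff hv
    have h := (isPreconnected_iff_subset_of_disjoint_closed.1 hc)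
      (((C \ v) ∩ s) ∪ (C \ u)) ((C \ v) ∩ t) ((hcv.inter hs).union (hC.sdiff hu)) (hcv.inter ht)
      (fun w hw => ?_) ?_
    · rcases h with h | h
      · intro w hw
        rcases h hw.1 with h1 | h1
        · exact h1.2
        · by_cases hwz : w = z
          · exact hwz ▸ hzs
          · rcases hcov ⟨hw.1, hwz⟩ with h2 | h2
            · exact absurd h2 h1.2
            · exact absurd h2 hw.2
      · exact (hno z hz hzv hzs (h hz).2).elim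
    · by_cases hwv : w ∈ v
      · exact Or.inl (Or.inr ⟨hw, fun h => hdis w hw h hwv⟩)
      · rcases hst ⟨hw, hwv⟩ with h1 | h1
        · exact Or.inl (Or.inl ⟨⟨hw, hwv⟩, h1⟩)
        · exact Or.inr ⟨⟨hw, hwv⟩, h1⟩
    · rw [eq_empty_iff_forall_notMem]
      rintro w ⟨hw, h1 | h1, h2⟩
      · exact hno w hw h2.1.2 h1.2 h2.2
      · by_cases hwz : w = z
        · exact hno z hz hzv hzs (hwz ▸ h2.2)
        · rcases hcov ⟨hw, hwz⟩ with h3 | h3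
          · exact h1.2 h3
          · exact h2.1.2 h3
  rw [isPreconnected_iff_subset_of_disjoint_closed]
  intro s t hs ht hst hemp
  rcases hst ⟨hz, hzv⟩ with h | h
  · exact Or.inl (key s t hs ht hst hemp h)
  · exact Or.inr (key t s ht hs (by rwa [union_comm]) (by rwa [inter_comm t s]) h)

theorem noncut_TA3 {C : Set ℂ} (hC : IsCompact C) (hc : IsPreconnected C) {p q : ℂ} (hp : p ∈ C)
    (hq : q ∈ C) (hpq : p ≠ q) : ∃ z ∈ C, z ≠ p ∧ IsPreconnected (C \ {z}) := by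
  by_contra hcon
  push Not at hcon
  have hsplit : ∀ z : ℂ, ∃ u v : Set ℂ, z ∈ C → z ≠ p → IsOpen u ∧ IsOpen v ∧ z ∉ u ∧ z ∉ v ∧
      C \ {z} ⊆ u ∪ v ∧ (∀ w ∈ C, w ∈ u → w ∉ v) ∧ p ∈ u ∧ (C ∩ v).Nonempty := by
    intro z
    by_cases hz : z ∈ C ∧ z ≠ p
    · have h := hcon z hz.1 hz.2
      unfold IsPreconnected at h
      push Not at h
      obtain ⟨u, v, hu, hv, hcov, hne1, hne2, hemp⟩ := h
      have hd : ∀ w ∈ C, w ∈ u \ {z} → w ∈ v \ {z} → False := fun w h1 h2 h3 => by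
        have : w ∈ (C \ {z}) ∩ (u ∩ v) := ⟨⟨h1, h2.2⟩, h2.1, h3.1⟩
        rw [hemp] at this
        exact this
      have hcov' : C \ {z} ⊆ (u \ {z}) ∪ (v \ {z}) := fun w hw =>
        (hcov hw).imp (fun h => ⟨h, hw.2⟩) (fun h => ⟨h, hw.2⟩)
      rcases hcov' ⟨hp, fun h => hz.2 (Eq.symm h)⟩ with h | h
      · obtain ⟨w, hw, hw'⟩ := hne2
        exact ⟨u \ {z}, v \ {z}, fun _ _ => ⟨hu.sdiff isClosed_singleton,
          hv.sdiff isClosed_singleton, fun h => h.2 rfl, fun h => h.2 rfl, hcov', hd, h,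
          ⟨w, hw.1, hw', hw.2⟩⟩⟩
      · obtain ⟨w, hw, hw'⟩ := hne1
        exact ⟨v \ {z}, u \ {z}, fun _ _ => ⟨hv.sdiff isClosed_singleton,
          hu.sdiff isClosed_singleton, fun h => h.2 rfl, fun h => h.2 rfl,
          by rwa [union_comm], fun w h1 h2 h3 => hd w h1 h3 h2, h, ⟨w, hw.1, hw', hw.2⟩⟩⟩
    · exact ⟨∅, ∅, fun h1 h2 => absurd ⟨h1, h2⟩ hz⟩
  choose u v huv using hsplit
  -- a point on the far side of a cut has its far side inside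
  have hstep : ∀ z ∈ C, z ≠ p → ∀ w ∈ C, w ∈ v z → w ≠ p ∧ C \ u w ⊆ C ∩ v z := by
    intro z hz hzp w hw hwv
    obtain ⟨hu, hv, hzu, hzv, hcov, hdis, hpu, -⟩ := huv z hz hzp
    have hwp : w ≠ p := fun h => hdis p hp hpu (h ▸ hwv)
    refine ⟨hwp, ?_⟩
    obtain ⟨hu', hv', hwu', hwv', hcov', hdis', hpu', -⟩ := huv w hw hwp
    have hpre := side_preconn_TA3 hC.isClosed hc hz hu hv hzu hzv hcov hdis
    have hsub : C \ v z ⊆ u w := by
      rcases (isPreconnected_iff_subset_of_disjoint.1 hpre) (u w) (v w) hu' hv'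
        (fun a ha => hcov' ⟨ha.1, fun h => ha.2 (Eq.symm h ▸ hwv)⟩)
        (eq_empty_iff_forall_notMem.2 fun a ha => hdis' a ha.1.1 ha.2.1 ha.2.2) with h | h
      · exact h
      · exact absurd (h ⟨hp, hdis p hp hpu⟩) (hdis' p hp hpu')
    intro a ha
    refine ⟨ha.1, ?_⟩
    by_contra hav
    exact ha.2 (hsub ⟨ha.1, hav⟩)
  set D : Set (Set ℂ) := (fun z => C \ u z) '' {z | z ∈ C ∧ z ≠ p} with hD
  have hlow : ∀ z ∈ C, z ≠ p → ∀ w ∈ C \ u z, w ≠ p ∧ C \ u w ⊆ C \ u z := by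
    intro z hz hzp w hw
    obtain ⟨-, -, -, -, hcov, hdis, -, -⟩ := huv z hz hzp
    by_cases hwz : w = z
    · subst hwz
      exact ⟨hzp, Subset.rfl⟩
    · have hwv : w ∈ v z := (hcov ⟨hw.1, hwz⟩).resolve_left hw.2
      obtain ⟨h1, h2⟩ := hstep z hz hzp w hw.1 hwv
      exact ⟨h1, fun a ha => ⟨ha.1, fun h => hdis a ha.1 h (h2 ha).2⟩⟩
  obtain ⟨m, -, hm⟩ := zorn_superset_nonempty D (fun c hcD hch hne => by
    have : Nonempty c := hne.to_subtype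
    have hcomp : ∀ i : c, IsCompact (i : Set ℂ) ∧ (i : Set ℂ).Nonempty := by
      rintro ⟨_, hi⟩
      obtain ⟨z, hz, rfl⟩ := hcD hi
      obtain ⟨hu, -, hzu, -⟩ := huv z hz.1 hz.2
      exact ⟨hC.diff hu, z, hz.1, hzu⟩
    obtain ⟨w, hw⟩ := IsCompact.nonempty_iInter_of_directed_nonempty_isCompact_isClosed
      (fun i : c => (i : Set ℂ)) (fun i j => by
        rcases hch.total i.2 j.2 with h | h
        · exact ⟨i, Subset.rfl, h⟩
        · exact ⟨j, h, Subset.rfl⟩)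
      (fun i => (hcomp i).2) (fun i => (hcomp i).1) (fun i => (hcomp i).1.isClosed)
    rw [mem_iInter] at hw
    obtain ⟨s₀, hs₀⟩ := hne
    obtain ⟨z₀, hz₀, h₀⟩ := hcD hs₀
    have hw₀ : w ∈ C \ u z₀ := by
      have : w ∈ s₀ := hw ⟨s₀, hs₀⟩
      rwa [← h₀] at this
    refine ⟨C \ u w, ⟨w, ⟨hw₀.1, (hlow z₀ hz₀.1 hz₀.2 w hw₀).1⟩, rfl⟩, fun s hs => ?_⟩
    obtain ⟨z, hz, rfl⟩ := hcD hs
    exact (hlow z hz.1 hz.2 w (hw ⟨_, hs⟩)).2) (C \ u q) ⟨q, ⟨hq, hpq.symm⟩, rfl⟩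
  obtain ⟨z, hz, rfl⟩ := hm.prop
  obtain ⟨-, -, hzu, hzv, -, hdis, -, w, hw, hwv⟩ := huv z hz.1 hz.2
  obtain ⟨h1, h2⟩ := hstep z hz.1 hz.2 w hw hwv
  have h3 : C \ u z ⊆ C \ u w := hm.le_of_le ⟨w, ⟨hw, h1⟩, rfl⟩
    (fun a ha => ⟨ha.1, fun h => hdis a ha.1 h (h2 ha).2⟩)
  exact hzv (h2 (h3 ⟨hz.1, hzu⟩)).2

end Vale.Agent.P128
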