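import Vale.Agent.P128.TA3.Basic

/-! P128 block TA3: the Poincare lemma for `c dχ`. -/

namespace Vale.Agent.P128

open MeasureTheory Set Metric Filter Topology

theorem PL_TA3 {U : Set ℂ} (_hU : IsOpen U) {c : ℂ → ℝ} (hc : LC U c) {χ : ℂ → ℝ}
    (hχ : ContDiff ℝ (⊤ : ℕ∞) χ) (hcs : HasCompactSupport (fderiv ℝ χ))
    (hs : tsupport (fderiv ℝ χ) ⊆ U) :
    ∃ q : ℂ → ℝ, ContDiff ℝ (⊤ : ℕ∞) q ∧ (∀ z, fderiv ℝ q z = c z • fderiv ℝ χ z) ∧
      ∀ R : ℝ, tsupport (fderiv ℝ χ) ⊆ closedBall 0 R → ∀ z, R < ‖z‖ → q z = 0 := by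
  set X : ℂ → ℂ →L[ℝ] ℝ := fun z => c z • fderiv ℝ χ z with hX
  have hdχ : ContDiff ℝ (⊤ : ℕ∞) (fderiv ℝ χ) := (contDiff_infty_iff_fderiv.1 hχ).2
  have hloc : ∀ z, X =ᶠ[𝓝 z] fun w => c z • fderiv ℝ χ w := by
    intro z
    by_cases hz : z ∈ tsupport (fderiv ℝ χ)
    · filter_upwards [hc z (hs hz)] with w hw
      simp only [hX, hw]
    · filter_upwards [notMem_tsupport_iff_eventuallyEq.1 hz] with w hw
      simp only [hX, hw, Pi.zero_apply, smul_zero]
  have hXs : ContDiff ℝ (⊤ : ℕ∞) X := by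
    rw [contDiff_iff_contDiffAt]
    intro z
    exact ((hdχ.const_smul (c z)).contDiffAt).congr_of_eventuallyEq (hloc z)
  have hXd : Differentiable ℝ X := hXs.differentiable (by simp)
  have hsym : ∀ a x y, fderiv ℝ X a x y = fderiv ℝ X a y x := by
    intro a x y
    have hd : DifferentiableAt ℝ (fderiv ℝ χ) a := hdχ.differentiable (by simp) a
    rw [(hloc a).fderiv_eq, fderiv_fun_const_smul hd]
    have := (hχ.contDiffAt (x := a)).isSymmSndFDerivAt
      (by
        simp only [minSmoothness_of_isRCLikeNormedField]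
        exact WithTop.coe_le_coe.2 (le_top : (2 : ℕ∞) ≤ ⊤)) x y
    simp only [smul_apply, this]
  obtain ⟨f, hf⟩ := (convex_univ (𝕜 := ℝ) (E := ℂ)).exists_forall_hasFDerivAt_of_fderiv_symmetric
    isOpen_univ hXd.differentiableOn (fun a _ x y => hsym a x y)
  have hf' : ∀ a, HasFDerivAt f (X a) a := fun a => hf a (mem_univ a)
  have hfd : Differentiable ℝ f := fun a => (hf' a).differentiableAt
  have hconst : ∀ R : ℝ, tsupport (fderiv ℝ χ) ⊆ closedBall 0 R → ∀ z w : ℂ, R < ‖z‖ → R < ‖w‖ →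
      f z = f w := by
    intro R hR z w hz hw
    have ho : IsOpen {z : ℂ | R < dist z 0} := isOpen_lt continuous_const (by fun_prop)
    refine ho.is_const_of_fderiv_eq_zero (𝕜 := ℝ) (outside_preconn_TA3 0 R) hfd.differentiableOn
      (fun a ha => ?_) (by simpa using hz) (by simpa using hw)
    have ha' : a ∉ tsupport (fderiv ℝ χ) := fun h => by
      have := hR h
      rw [mem_closedBall] at this
      exact absurd ha (not_lt.2 this)
    rw [(hf' a).fderiv]
    simp only [hX, image_eq_zero_of_notMem_tsupport ha', smul_zero, Pi.zero_apply]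
  obtain ⟨R₀, hR₀⟩ := (IsCompact.isBounded hcs).subset_closedBall 0
  refine ⟨fun z => f z - f ((|R₀| + 1 : ℝ) : ℂ), ?_, fun z => ?_, fun R hR z hz => ?_⟩
  · refine ContDiff.sub ?_ contDiff_const
    rw [contDiff_infty_iff_fderiv]
    refine ⟨hfd, ?_⟩
    have : fderiv ℝ f = X := funext fun a => (hf' a).fderiv
    rw [this]; exact hXs
  · rw [fderiv_sub_const, (hf' z).fderiv]
  · have hn : ∀ t : ℝ, 0 ≤ t → ‖(t : ℂ)‖ = t := fun t ht => by
      rw [Complex.norm_real, Real.norm_of_nonneg ht]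
    have h1 : f z = f ((|R| + |R₀| + 1 : ℝ) : ℂ) := by
      refine hconst R hR _ _ hz ?_
      rw [hn _ (by positivity)]
      linarith [le_abs_self R, abs_nonneg R₀]
    have h2 : f ((|R₀| + 1 : ℝ) : ℂ) = f ((|R| + |R₀| + 1 : ℝ) : ℂ) := by
      refine hconst R₀ hR₀ _ _ ?_ ?_
      · rw [hn _ (by positivity)]
        linarith [le_abs_self R₀]
      · rw [hn _ (by positivity)]
        linarith [le_abs_self R₀, abs_nonneg R]
    simp only [h1, h2, sub_self]

end Vale.Agent.P128
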