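import Vale.Agent.P128.TA1.Main
import Vale.Agent.P128.TA3.PL
import Vale.Agent.P128.TA3.Comp
import Vale.Agent.P128.TA3.Cross
import Vale.Agent.P128.TA3.NonCut

/-! P128 block TA3: topological tools. Interface; see notes/P128.md. -/

namespace Vale.Agent.P128

open MeasureTheory Set Metric Filter Topology
open scoped ENNReal

/-- Poincare lemma for the closed form `c dχ`. -/
theorem PL {U : Set ℂ} (hU : IsOpen U) {c : ℂ → ℝ} (hc : LC U c) {χ : ℂ → ℝ}
    (hχ : ContDiff ℝ (⊤ : ℕ∞) χ) (hcs : HasCompactSupport (fderiv ℝ χ))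
    (hs : tsupport (fderiv ℝ χ) ⊆ U) :
    ∃ q : ℂ → ℝ, ContDiff ℝ (⊤ : ℕ∞) q ∧ (∀ z, fderiv ℝ q z = c z • fderiv ℝ χ z) ∧
      ∀ R : ℝ, tsupport (fderiv ℝ χ) ⊆ closedBall 0 R → ∀ z, R < ‖z‖ → q z = 0 :=
  PL_TA3 hU hc hχ hcs hs

/-- Without compact pieces every component of `K` in a closed ball meets the circle. -/
theorem NC1 {K : Set ℂ} (hK : IsClosed K) (hN : NoPiece K) {x y : ℂ} {R : ℝ}
    (hy : y ∈ K ∩ closedBall x R) :
    (connectedComponentIn (K ∩ closedBall x R) y ∩ sphere x R).Nonempty :=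
  NC1_TA3 hK hN hy

/-- Components of compact sets are continua. -/
theorem comp_compact {S : Set ℂ} (hS : IsCompact S) {y : ℂ} (hy : y ∈ S) :
    IsCompact (connectedComponentIn S y) ∧ IsConnected (connectedComponentIn S y) :=
  comp_compact_TA3 hS hy

/-- Finitely many disjoint continua cover `K` in a ball. -/
theorem LOCFIN {K : Set ℂ} (hK : IsClosed K) (hN : NoPiece K) {x : ℂ} {R : ℝ} (hR : 0 < R)
    (hfin : μH[1] (K ∩ closedBall x (2 * R)) < ∞) :
    ∃ F : Finset (Set ℂ), (∀ C ∈ F, IsCompact C ∧ IsConnected C ∧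
        C ⊆ K ∩ closedBall x (2 * R) ∧ (C ∩ sphere x (2 * R)).Nonempty ∧
        (C ∩ closedBall x R).Nonempty) ∧
      (F : Set (Set ℂ)).PairwiseDisjoint id ∧ K ∩ closedBall x R ⊆ ⋃ C ∈ F, C :=
  LOCFIN_TA3 hK hN hR hfin

/-- A continuous logarithm of `(z - p) / (z - q)` off a continuum through `p` and `q`,
tending to zero at infinity. -/
theorem exists_log {C : Set ℂ} (hC : IsCompact C) (hc : IsPreconnected C) {p q : ℂ}
    (hp : p ∈ C) (hq : q ∈ C) :
    ∃ ℓ : ℂ → ℂ, (∀ z ∉ C, HasDerivAt ℓ ((z - p)⁻¹ - (z - q)⁻¹) z ∧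
      Complex.exp (ℓ z) = (z - p) / (z - q)) ∧ Tendsto ℓ (Bornology.cobounded ℂ) (𝓝 0) :=
  exists_log_TA3 hC hc hp hq

/-- Crossing lemma: two points of a circle joined by a continuum outside the open disc and by a
continuum inside the closed disc that meets the circle only at them; then points of the two
open arcs off the union are separated by the union. -/
theorem crossing {y : ℂ} {s : ℝ} (hs : 0 < s) {θ₁ θ₂ a b : ℝ} (h1 : θ₁ < a) (h2 : a < θ₂)
    (h3 : θ₂ < b) (h4 : b < θ₁ + 2 * Real.pi) {C₁ C₂ : Set ℂ}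
    (hC₁ : IsCompact C₁) (hc₁ : IsPreconnected C₁) (hC₂ : IsCompact C₂) (hc₂ : IsPreconnected C₂)
    (hin : C₁ ⊆ closedBall y s) (hout : Disjoint C₂ (ball y s))
    (hp₁ : circleMap y s θ₁ ∈ C₁ ∩ C₂) (hp₂ : circleMap y s θ₂ ∈ C₁ ∩ C₂)
    (honly : (C₁ ∪ C₂) ∩ sphere y s ⊆ {circleMap y s θ₁, circleMap y s θ₂}) :
    ∃ κ : ℂ → ℝ, LC (C₁ ∪ C₂)ᶜ κ ∧ κ (circleMap y s a) ≠ κ (circleMap y s b) :=
  crossing_TA3 hs h1 h2 h3 h4 hC₁ hc₁ hC₂ hc₂ hin hout hp₁ hp₂ honly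

/-- Every nondegenerate continuum has a non-cut point different from a given point. -/
theorem noncut {C : Set ℂ} (hC : IsCompact C) (hc : IsPreconnected C) {p q : ℂ} (hp : p ∈ C)
    (hq : q ∈ C) (hpq : p ≠ q) : ∃ z ∈ C, z ≠ p ∧ IsPreconnected (C \ {z}) :=
  noncut_TA3 hC hc hp hq hpq

end Vale.Agent.P128
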