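import Vale.Agent.P128.Defs

/-! P128 block TA3: basic facts on locally constant functions. -/

namespace Vale.Agent.P128

open MeasureTheory Set Metric Filter Topology

/-- A function that is locally constant at the points of a preconnected set is constant on it. -/
theorem const_of_lc_TA3 {β : Type*} {T : Set ℂ} (hT : IsPreconnected T) {f : ℂ → β}
    (h : ∀ z ∈ T, ∀ᶠ w in 𝓝 z, f w = f z) {a b : ℂ} (ha : a ∈ T) (hb : b ∈ T) : f a = f b := by
  refine hT.induction₂' (fun x y => f x = f y) (fun x hx => ?_) (fun x y z _ _ _ h1 h2 => h1.trans h2)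
    ha hb
  filter_upwards [nhdsWithin_le_nhds (h x hx)] with y hy
  exact ⟨hy.symm, hy⟩

/-- Zero complex derivative on an open set gives a locally constant function. -/
theorem lc_of_deriv_TA3 {U : Set ℂ} (hU : IsOpen U) {f : ℂ → ℂ}
    (h : ∀ z ∈ U, HasDerivAt f 0 z) {z : ℂ} (hz : z ∈ U) : ∀ᶠ w in 𝓝 z, f w = f z := by
  obtain ⟨r, hr, hsub⟩ := Metric.isOpen_iff.1 hU z hz
  filter_upwards [ball_mem_nhds z hr] with w hw
  exact isOpen_ball.is_const_of_deriv_eq_zero (convex_ball z r).isPreconnected
    (fun x hx => (h x (hsub hx)).differentiableAt.differentiableWithinAt)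
    (fun x hx => (h x (hsub hx)).deriv) hw (mem_ball_self hr)

/-- The outside of a closed disc is preconnected. -/
theorem outside_preconn_TA3 (y : ℂ) (R : ℝ) : IsPreconnected {z : ℂ | R < dist z y} := by
  rcases lt_or_ge R 0 with hR | hR
  · have : {z : ℂ | R < dist z y} = univ :=
      eq_univ_of_forall fun z => lt_of_lt_of_le hR dist_nonneg
    rw [this]; exact isPreconnected_univ
  · have hc : Continuous fun p : ℝ × ℝ => circleMap y p.1 p.2 := by
      unfold circleMap; fun_prop
    have h := ((isPreconnected_Ioi (a := R)).prod (isPreconnected_univ (α := ℝ))).image _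
      hc.continuousOn
    convert h using 1
    ext z
    constructor
    · intro hz
      refine ⟨(dist z y, Complex.arg (z - y)), ⟨hz, mem_univ _⟩, ?_⟩
      simp only [circleMap, dist_eq_norm]
      rw [Complex.norm_mul_exp_arg_mul_I]; ring
    · rintro ⟨⟨t, θ⟩, ⟨ht, -⟩, rfl⟩
      have ht' : R < t := ht
      have := circleMap_mem_sphere y (hR.trans ht'.le) θ
      rw [mem_sphere] at this
      simpa [this] using ht'

end Vale.Agent.P128
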