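import Vale.Agent.P128.TA3.Basic

/-! P128 block TA3: logarithms off a continuum. -/

namespace Vale.Agent.P128

open MeasureTheory Set Metric Filter Topology

/-- The principal logarithm of the quotient. -/
theorem log_quot_TA3 {p q z : ℂ} (σ : ℂ) (hσ : σ ≠ 0) (hq : z ≠ q)
    (h : σ * ((z - p) / (z - q)) ∈ Complex.slitPlane) :
    HasDerivAt (fun w => Complex.log (σ * ((w - p) / (w - q)))) ((z - p)⁻¹ - (z - q)⁻¹) z := by
  have hq' : z - q ≠ 0 := sub_ne_zero.2 hq
  have hp' : z - p ≠ 0 := by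
    intro h0
    rw [h0, zero_div, mul_zero] at h
    exact Complex.zero_notMem_slitPlane h
  have h1 : HasDerivAt (fun w => σ * ((w - p) / (w - q)))
      (σ * ((1 * (z - q) - (z - p) * 1) / (z - q) ^ 2)) z :=
    (((hasDerivAt_id' z).sub_const p).div ((hasDerivAt_id' z).sub_const q) hq').const_mul σ
  convert h1.clog h using 1
  field_simp

/-- Chains: a logarithm at distance at least `ε` from the continuum. -/
theorem chain_log_TA3 {C : Set ℂ} (hc : IsPreconnected C) {p q : ℂ} (hp : p ∈ C) (hq : q ∈ C)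
    {ε : ℝ} (hε : 0 < ε) :
    ∃ ℓ : ℂ → ℂ, ∀ z, (∀ w ∈ C, ε ≤ dist z w) → HasDerivAt ℓ ((z - p)⁻¹ - (z - q)⁻¹) z ∧
      Complex.exp (ℓ z) = (z - p) / (z - q) := by
  have key : ∀ a ∈ C, ∀ b ∈ C, dist a b < ε → ∃ ℓ : ℂ → ℂ, ∀ z, (∀ w ∈ C, ε ≤ dist z w) →
      HasDerivAt ℓ ((z - a)⁻¹ - (z - b)⁻¹) z ∧ Complex.exp (ℓ z) = (z - a) / (z - b) := by
    intro a ha b hb hab
    refine ⟨fun w => Complex.log (1 * ((w - a) / (w - b))), fun z hz => ?_⟩
    have hzb : 0 < dist z b := hε.trans_le (hz b hb)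
    have hzb' : z ≠ b := dist_pos.1 hzb
    have hs : 1 * ((z - a) / (z - b)) ∈ Complex.slitPlane := by
      have h1 : 1 * ((z - a) / (z - b)) = 1 + (b - a) / (z - b) := by
        have := sub_ne_zero.2 hzb'
        field_simp
        ring
      rw [h1]
      apply Complex.mem_slitPlane_of_norm_lt_one
      rw [norm_div, div_lt_one (by rwa [← dist_eq_norm]), ← dist_eq_norm, ← dist_eq_norm,
        dist_comm b a]
      exact hab.trans_le (hz b hb)
    refine ⟨log_quot_TA3 1 one_ne_zero hzb' hs, ?_⟩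
    rw [Complex.exp_log (Complex.slitPlane_ne_zero hs), one_mul]
  refine hc.induction₂' (fun a b => ∃ ℓ : ℂ → ℂ, ∀ z, (∀ w ∈ C, ε ≤ dist z w) →
      HasDerivAt ℓ ((z - a)⁻¹ - (z - b)⁻¹) z ∧ Complex.exp (ℓ z) = (z - a) / (z - b))
    (fun x hx => ?_) ?_ hp hq
  · filter_upwards [self_mem_nhdsWithin, nhdsWithin_le_nhds (ball_mem_nhds x hε)] with y hy hy'
    rw [mem_ball] at hy'
    exact ⟨key x hx y hy (by rwa [dist_comm]), key y hy x hx hy'⟩
  · rintro a b c - hb - ⟨l1, h1⟩ ⟨l2, h2⟩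
    refine ⟨fun w => l1 w + l2 w, fun z hz => ⟨?_, ?_⟩⟩
    · exact ((h1 z hz).1.fun_add (h2 z hz).1).congr_deriv (by ring)
    · have hzb : z - b ≠ 0 := sub_ne_zero.2 (dist_pos.1 (hε.trans_le (hz b hb)))
      rw [Complex.exp_add, (h1 z hz).2, (h2 z hz).2]
      field_simp

/-- Patching logarithms along an increasing exhaustion by open sets. -/
theorem patch_log_TA3 {U : ℕ → Set ℂ} (hU : ∀ k, IsOpen (U k)) (hm : Monotone U)
    {f g : ℂ → ℂ} {F : ℕ → ℂ → ℂ} (hf : ∀ z ∈ ⋃ k, U k, f z ≠ 0)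
    (hF : ∀ k, ∀ z ∈ U k, HasDerivAt (F k) (g z) z ∧ Complex.exp (F k z) = f z) :
    ∃ ℓ : ℂ → ℂ, ∀ z ∈ ⋃ k, U k, HasDerivAt ℓ (g z) z ∧ Complex.exp (ℓ z) = f z := by
  classical
  set W := ⋃ k, U k with hW
  have hWo : IsOpen W := isOpen_iUnion hU
  let b : ℂ → ℂ := fun z => Classical.epsilon fun w => w ∈ pathComponentIn W z
  have hb : ∀ z ∈ W, b z ∈ pathComponentIn W z := fun z hz =>
    Classical.epsilon_spec (p := fun w => w ∈ pathComponentIn W z) ⟨z, mem_pathComponentIn_self hz⟩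
  refine ⟨fun z => limUnder atTop (fun k => F k z - F k (b z)) + Complex.log (f (b z)),
    fun z hz => ?_⟩
  obtain ⟨r, hr, hball⟩ : ∃ r > 0, closedBall z r ⊆ W :=
    Metric.nhds_basis_closedBall.mem_iff.1 (hWo.mem_nhds hz)
  have hbw : ∀ w ∈ closedBall z r, b w = b z := by
    intro w hw
    have h1 : w ∈ pathComponentIn W z :=
      ((convex_closedBall z r).isPathConnected ⟨z, mem_closedBall_self hr.le⟩).subset_pathComponentIn
        (mem_closedBall_self hr.le) hball hw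
    simp only [b, pathComponentIn_congr h1]
  obtain ⟨γ, hγ⟩ : JoinedIn W z (b z) := hb z hz
  set T := range γ ∪ closedBall z r with hT
  have hTc : IsCompact T := (isCompact_range γ.continuous).union (isCompact_closedBall z r)
  have hTp : IsPreconnected T :=
    (isPreconnected_range γ.continuous).union z γ.source_mem_range (mem_closedBall_self hr.le)
      (convex_closedBall z r).isPreconnected
  have hTW : T ⊆ ⋃ k, U k := union_subset (range_subset_iff.2 hγ) hball
  obtain ⟨k₀, hk₀⟩ := hTc.elim_directed_cover U hU hTW hm.directed_le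
  have hbT : b z ∈ T := Or.inl γ.target_mem_range
  have hev : ∀ w ∈ closedBall z r, limUnder atTop (fun k => F k w - F k (b w)) =
      F k₀ w - F k₀ (b z) := by
    intro w hw
    rw [hbw w hw]
    refine Tendsto.limUnder_eq (tendsto_const_nhds.congr' ?_)
    filter_upwards [eventually_ge_atTop k₀] with k hk
    have h := const_of_lc_TA3 hTp (f := fun v => F k v - F k₀ v)
      (fun v hv => lc_of_deriv_TA3 (hU k₀) (fun u hu =>
        ((hF k u (hm hk hu)).1.fun_sub (hF k₀ u hu).1).congr_deriv (sub_self _)) (hk₀ hv))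
      (Or.inr hw) hbT
    linear_combination -h
  constructor
  · have h1 : HasDerivAt (fun w => F k₀ w - F k₀ (b z) + Complex.log (f (b z))) (g z) z :=
      (((hF k₀ z (hk₀ (Or.inr (mem_closedBall_self hr.le)))).1.sub_const _).add_const _)
    refine h1.congr_of_eventuallyEq ?_
    filter_upwards [closedBall_mem_nhds z hr] with w hw
    rw [hev w hw, hbw w hw]
  · have hfb : f (b z) ≠ 0 := hf _ (hTW hbT)
    simp only
    rw [hev z (mem_closedBall_self hr.le), Complex.exp_add, Complex.exp_sub,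
      (hF k₀ z (hk₀ (Or.inr (mem_closedBall_self hr.le)))).2, (hF k₀ _ (hk₀ hbT)).2,
      Complex.exp_log hfb]
    field_simp

/-- A logarithm off the continuum, not normalized. -/
theorem exists_log0_TA3 {C : Set ℂ} (hC : IsCompact C) (hc : IsPreconnected C) {p q : ℂ}
    (hp : p ∈ C) (hq : q ∈ C) :
    ∃ ℓ : ℂ → ℂ, ∀ z ∉ C, HasDerivAt ℓ ((z - p)⁻¹ - (z - q)⁻¹) z ∧
      Complex.exp (ℓ z) = (z - p) / (z - q) := by
  have hpos : ∀ k : ℕ, (0 : ℝ) < 1 / ((k : ℝ) + 1) := fun k => Nat.one_div_pos_of_nat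
  choose F hF using fun k : ℕ => chain_log_TA3 hc hp hq (hpos k)
  set U : ℕ → Set ℂ := fun k => {z | 1 / ((k : ℝ) + 1) < infDist z C} with hUdef
  have hU : ∀ k, IsOpen (U k) := fun k => isOpen_lt continuous_const (continuous_infDist_pt C)
  have hm : Monotone U := fun k l hkl z hz =>
    lt_of_le_of_lt (Nat.one_div_le_one_div (α := ℝ) hkl) hz
  have hW : ∀ z, z ∈ (⋃ k, U k) ↔ z ∉ C := by
    intro z
    rw [mem_iUnion, hC.isClosed.notMem_iff_infDist_pos ⟨p, hp⟩]
    exact ⟨fun ⟨k, hk⟩ => (hpos k).trans hk, fun h => exists_nat_one_div_lt h⟩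
  obtain ⟨ℓ, hℓ⟩ := patch_log_TA3 hU hm (f := fun z => (z - p) / (z - q))
    (g := fun z => (z - p)⁻¹ - (z - q)⁻¹) (F := F)
    (fun z hz => div_ne_zero (sub_ne_zero.2 fun h => (hW z).1 hz (h ▸ hp))
      (sub_ne_zero.2 fun h => (hW z).1 hz (h ▸ hq)))
    (fun k z hz => hF k z fun w hw => (le_of_lt hz).trans (infDist_le_dist_of_mem hw))
  exact ⟨ℓ, fun z hz => hℓ z ((hW z).2 hz)⟩

/-- Outside a closed disc containing `p` and `q` the quotient avoids the negative axis. -/
theorem slit_outside_TA3 {y p q z : ℂ} {s : ℝ} (hp : p ∈ closedBall y s) (hq : q ∈ closedBall y s)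
    (hz : s < dist z y) : z ≠ q ∧ 1 * ((z - p) / (z - q)) ∈ Complex.slitPlane := by
  have hzq : z ≠ q := fun h => absurd (mem_closedBall.1 hq) (not_le.2 (h ▸ hz))
  refine ⟨hzq, ?_⟩
  by_contra hs
  rw [Complex.mem_slitPlane_iff, not_or, not_lt, not_not, one_mul] at hs
  set t : ℝ := -((z - p) / (z - q)).re with ht
  have ht0 : 0 ≤ t := by linarith [hs.1]
  have h1 : (z - p) / (z - q) = -(t : ℂ) := by
    apply Complex.ext
    · simp [ht]
    · simp [hs.2]
  have h2 : z - q ≠ 0 := sub_ne_zero.2 hzq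
  have h3 : (1 + (t : ℂ)) ≠ 0 := by exact_mod_cast (by positivity : (1 + t) ≠ 0)
  have h4 : z = (1 / (1 + t) : ℝ) • p + (t / (1 + t) : ℝ) • q := by
    rw [div_eq_iff h2] at h1
    simp only [Complex.real_smul]
    push_cast
    field_simp
    linear_combination h1
  have h5 : z ∈ closedBall y s := by
    rw [h4]
    exact convex_closedBall y s hp hq (by positivity) (by positivity) (by field_simp)
  exact absurd (mem_closedBall.1 h5) (not_le.2 hz)

theorem exists_log_TA3 {C : Set ℂ} (hC : IsCompact C) (hc : IsPreconnected C) {p q : ℂ}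
    (hp : p ∈ C) (hq : q ∈ C) :
    ∃ ℓ : ℂ → ℂ, (∀ z ∉ C, HasDerivAt ℓ ((z - p)⁻¹ - (z - q)⁻¹) z ∧
      Complex.exp (ℓ z) = (z - p) / (z - q)) ∧ Tendsto ℓ (Bornology.cobounded ℂ) (𝓝 0) := by
  obtain ⟨ℓ, hℓ⟩ := exists_log0_TA3 hC hc hp hq
  obtain ⟨R, hR⟩ := hC.isBounded.subset_closedBall 0
  set E : Set ℂ := {z | R < dist z 0} with hE
  have hEo : IsOpen E := isOpen_lt continuous_const (by fun_prop)
  have hEC : ∀ z ∈ E, z ∉ C := fun z hz h => absurd (mem_closedBall.1 (hR h)) (not_le.2 hz)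
  set lam : ℂ → ℂ := fun w => Complex.log (1 * ((w - p) / (w - q))) with hlam
  have hd : ∀ z ∈ E, HasDerivAt (fun w => ℓ w - lam w) 0 z := by
    intro z hz
    have h := slit_outside_TA3 (hR hp) (hR hq) hz
    exact ((hℓ z (hEC z hz)).1.fun_sub (log_quot_TA3 1 one_ne_zero h.1 h.2)).congr_deriv
      (sub_self _)
  set z₀ : ℂ := ((|R| + 1 : ℝ) : ℂ) with hz₀
  have hz₀E : z₀ ∈ E := by
    change R < dist z₀ 0
    rw [dist_zero_right, hz₀, Complex.norm_real, Real.norm_of_nonneg (by positivity)]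
    linarith [le_abs_self R]
  set c := ℓ z₀ - lam z₀ with hc'
  have hconst : ∀ z ∈ E, ℓ z - lam z = c := fun z hz =>
    const_of_lc_TA3 (outside_preconn_TA3 0 R) (f := fun w => ℓ w - lam w)
      (fun v hv => lc_of_deriv_TA3 hEo hd hv) hz hz₀E
  have hexp : Complex.exp c = 1 := by
    have h := slit_outside_TA3 (hR hp) (hR hq) hz₀E
    have h0 := Complex.slitPlane_ne_zero h.2
    rw [hc', Complex.exp_sub, (hℓ z₀ (hEC z₀ hz₀E)).2, hlam]
    simp only
    rw [Complex.exp_log h0, one_mul]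
    exact div_self (by rwa [one_mul] at h0)
  refine ⟨fun z => ℓ z - c, fun z hz => ⟨(hℓ z hz).1.sub_const c, ?_⟩, ?_⟩
  · rw [Complex.exp_sub, hexp, div_one, (hℓ z hz).2]
  · have hEv : ∀ᶠ z in Bornology.cobounded ℂ, z ∈ E := by
      have := (isBounded_closedBall (x := (0 : ℂ)) (r := R)).compl
      filter_upwards [this] with z hz
      exact not_le.1 fun h => hz (mem_closedBall.2 h)
    have hq1 : Tendsto (fun z : ℂ => 1 * ((z - p) / (z - q))) (Bornology.cobounded ℂ) (𝓝 1) := by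
      have h1 : Tendsto (fun z : ℂ => (z - q)⁻¹) (Bornology.cobounded ℂ) (𝓝 0) :=
        tendsto_inv₀_cobounded.comp (tendsto_sub_const_cobounded q)
      have h2 : Tendsto (fun z : ℂ => 1 + (q - p) * (z - q)⁻¹) (Bornology.cobounded ℂ)
          (𝓝 (1 + (q - p) * 0)) := (h1.const_mul _).const_add _
      rw [mul_zero, add_zero] at h2
      refine h2.congr' ?_
      filter_upwards [hEv] with z hz
      have := sub_ne_zero.2 (slit_outside_TA3 (hR hp) (hR hq) hz).1
      field_simp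
      ring
    have hl : Tendsto lam (Bornology.cobounded ℂ) (𝓝 0) := by
      have := (continuousAt_clog (x := 1) Complex.one_mem_slitPlane).tendsto.comp hq1
      rwa [Complex.log_one] at this
    refine hl.congr' ?_
    filter_upwards [hEv] with z hz
    rw [← hconst z hz]; ring

end Vale.Agent.P128
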